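import Mathlib
import Vale.Agent.P052X.Proj

/-!
# P052: the rank-one projectors of `ℝ⁴` are a nine-dimensional counterexample
-/

namespace Vale.Agent.Results.P052.ProjectorsOfR4

open Vale.Agent.P052 Vale.Agent.P052X

/-- The set of the rank-one orthogonal projectors `x xᵀ` of `ℝ⁴`, with the Frobenius metric, is
compact, has diameter `√2`, consists of symmetric matrices of trace one, and cannot be covered by
ten sets of smaller diameter. The symmetric matrices of trace one are an isometric copy of `ℝ⁹`,
in which the projectors form a compact set with the same property. Borsuk's conjecture fails in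
every dimension at least nine. -/
theorem result :
    (IsCompact projectors ∧ Metric.diam projectors = √2 ∧ projectors ⊆ symTraceOne ∧
      NoSmallerCover projectors 10) ∧
    (∃ f : EuclideanSpace ℝ (Fin 9) → EuclideanSpace ℝ (Fin 4 × Fin 4),
      Isometry f ∧ Set.range f = symTraceOne ∧ IsCompact (f ⁻¹' projectors) ∧
      Metric.diam (f ⁻¹' projectors) = √2 ∧ NoSmallerCover (f ⁻¹' projectors) 10) ∧
    ∀ d : ℕ, 9 ≤ d → ¬ BorsukConjecture d :=
  ⟨⟨isCompact_projectors, diam_projectors, projectors_subset, noSmallerCover_projectors⟩,
    ⟨emb, emb.isometry, range_emb, isCompact_preimage, diam_preimage, noSmallerCover_preimage⟩,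
    not_borsuk⟩

end Vale.Agent.Results.P052.ProjectorsOfR4
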